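import Vale.Agent.Lib.P161.Tree

/-!
The free Ising measure on the tree, built from independent edge signs, with its marginal formula on
finite connected sets, and its invariance under automorphisms and under the global spin flip.
-/

namespace Vale.Agent.Lib.P161

open MeasureTheory ProbabilityTheory SimpleGraph
open scoped ENNReal

variable {d : ℕ}

@[simp] lemma sp_true : sp true = -1 := rfl
@[simp] lemma sp_false : sp false = 1 := rfl

lemma sp_xor (a b : Bool) : sp (xor a b) = sp a * sp b := by
  cases a <;> cases b <;> simp [sp]

lemma sp_not (a : Bool) : sp (!a) = - sp a := by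
  cases a <;> simp [sp]

lemma sp_mul_self (a : Bool) : sp a * sp a = 1 := by
  cases a <;> simp [sp]

lemma abs_sp (a : Bool) : |sp a| = 1 := by
  cases a <;> simp [sp]

lemma wt_add (θ : ℝ) (a : Bool) : wt θ a false + wt θ a true = 1 := by
  simp [wt]; ring

lemma wt_not (θ : ℝ) (a b : Bool) : wt θ (!a) (!b) = wt θ a b := by
  simp [wt, sp_not]

lemma wt_nonneg {θ : ℝ} (h0 : 0 ≤ θ) (h1 : θ ≤ 1) (a b : Bool) : 0 ≤ wt θ a b := by
  cases a <;> cases b <;> simp [wt, sp] <;> linarith

/-- The law of a sign with mean `θ`. -/
noncomputable def bern (θ : ℝ) : Measure Bool :=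
  ENNReal.ofReal ((1 + θ) / 2) • Measure.dirac false + ENNReal.ofReal ((1 - θ) / 2) • Measure.dirac true

lemma bern_singleton (θ : ℝ) (x : Bool) : bern θ {x} = ENNReal.ofReal ((1 + θ * sp x) / 2) := by
  cases x <;> simp [bern, sp]
  ring_nf

lemma bern_isProb {θ : ℝ} (h0 : -1 ≤ θ) (h1 : θ ≤ 1) : IsProbabilityMeasure (bern θ) := by
  constructor
  simp only [bern, Measure.coe_add, Measure.coe_smul, Pi.add_apply, Pi.smul_apply, measure_univ,
    smul_eq_mul, mul_one]
  rw [← ENNReal.ofReal_add (by linarith) (by linarith)]
  have : (1 + θ) / 2 + (1 - θ) / 2 = 1 := by ring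
  rw [this]; simp

/-- The standing assumption on the edge correlation. -/
class Corr (θ : ℝ) : Prop where
  nonneg : 0 ≤ θ
  le_one : θ ≤ 1

instance (θ : ℝ) [h : Corr θ] : IsProbabilityMeasure (bern θ) :=
  bern_isProb (by linarith [h.nonneg]) h.le_one

instance : IsProbabilityMeasure (bern 0) := bern_isProb (by norm_num) (by norm_num)

/-- Marginals of the independent edge signs: fair at the root, mean `θ` elsewhere. -/
noncomputable def mrg (θ : ℝ) (v : Word d) : Measure Bool := if v = root then bern 0 else bern θ

instance (θ : ℝ) [Corr θ] (v : Word d) : IsProbabilityMeasure (mrg θ v) := by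
  unfold mrg; split_ifs <;> infer_instance

/-- The law of the independent edge signs. -/
noncomputable def tLaw (d : ℕ) (θ : ℝ) : Measure (Word d → Bool) := Measure.infinitePi (mrg θ)

instance (θ : ℝ) [Corr θ] : IsProbabilityMeasure (tLaw d θ) := by
  unfold tLaw; infer_instance

/-- Extension of a sign configuration to all lists. -/
def extT (t : Word d → Bool) (l : List (Fin d)) : Bool :=
  open Classical in if h : l.IsChain (· ≠ ·) then t ⟨l, h⟩ else false

/-- Product of the signs on the path from the root. -/
def goT (t : Word d → Bool) : List (Fin d) → Bool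
  | [] => t root
  | i :: w => xor (goT t w) (extT t (i :: w))

/-- The spin configuration defined by the edge signs. -/
def tau (t : Word d → Bool) (v : Word d) : Bool := goT t v.1

@[simp] lemma tau_root (t : Word d → Bool) : tau t root = t root := rfl

lemma tau_step (t : Word d → Bool) {v : Word d} (h : v ≠ root) :
    tau t v = xor (tau t (parent v)) (t v) := by
  obtain ⟨l, hl⟩ := v
  cases l with
  | nil => exact absurd rfl h
  | cons a l =>
    simp [tau, goT, parent, extT, hl]

/-- The finite subsets of the coordinates are all measurable here. -/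
lemma measurable_tau_coord (v : Word d) : Measurable (fun t : Word d → Bool => tau t v) := by
  obtain ⟨l, hl⟩ := v
  induction l with
  | nil => exact measurable_pi_apply _
  | cons a l ih =>
    have h1 := ih hl.tail
    have h2 : Measurable (fun t : Word d → Bool => t ⟨a :: l, hl⟩) := measurable_pi_apply _
    have h3 : (fun t : Word d → Bool => tau t ⟨a :: l, hl⟩) =
        fun t => xor (tau t ⟨l, hl.tail⟩) (t ⟨a :: l, hl⟩) := by
      funext t
      exact tau_step t (v := ⟨a :: l, hl⟩) (by simp [root])
    rw [h3]
    have h4 : Measurable (fun p : Bool × Bool => xor p.1 p.2) := Measurable.of_discrete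
    exact h4.comp (h1.prodMk h2)

lemma measurable_tau : Measurable (tau : (Word d → Bool) → Word d → Bool) :=
  measurable_pi_iff.mpr measurable_tau_coord

/-- The free Ising measure with edge correlation `θ`. -/
noncomputable def isingLaw (d : ℕ) (θ : ℝ) : Measure (Word d → Bool) := (tLaw d θ).map tau

instance (θ : ℝ) [Corr θ] : IsProbabilityMeasure (isingLaw d θ) := by
  unfold isingLaw
  exact Measure.isProbabilityMeasure_map measurable_tau.aemeasurable

/-- The cylinder of configurations equal to `η` on `D`. -/
def cyl (D : Finset (Word d)) (η : Word d → Bool) : Set (Word d → Bool) := {σ | ∀ v ∈ D, σ v = η v}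

lemma measurableSet_cyl (D : Finset (Word d)) (η : Word d → Bool) : MeasurableSet (cyl D η) := by
  have : cyl D η = ⋂ v ∈ D, (fun σ : Word d → Bool => σ v) ⁻¹' {η v} := by
    ext σ; simp [cyl]
  rw [this]
  exact Finset.measurableSet_biInter _ (fun v _ => measurable_pi_apply v (measurableSet_singleton _))

section Box

variable (θ : ℝ) [Corr θ]

/-- The product of the weights over the non-top vertices of a set. -/
noncomputable def wProd (θ : ℝ) (D : Finset (Word d)) (top : Word d) (η : Word d → Bool) : ℝ :=
  ∏ v ∈ D.erase top, wt θ (η v) (η (parent v))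

lemma wProd_nonneg (D : Finset (Word d)) (top : Word d) (η : Word d → Bool) :
    0 ≤ wProd θ D top η :=
  Finset.prod_nonneg fun _ _ => wt_nonneg (Corr.nonneg) (Corr.le_one) _ _

/-- The required increment at a vertex. -/
def incr (η : Word d → Bool) (v : Word d) : Bool :=
  if v = root then η root else xor (η (parent v)) (η v)

lemma tLaw_box {D : Finset (Word d)} (hroot : root ∈ D)
    (hpar : ∀ v ∈ D, v ≠ root → parent v ∈ D) (η : Word d → Bool) :
    tLaw d θ {t | ∀ v ∈ D, tau t v = η v} = ENNReal.ofReal (1 / 2 * wProd θ D root η) := by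
  have hset : {t : Word d → Bool | ∀ v ∈ D, tau t v = η v} =
      (↑D : Set (Word d)).pi (fun v => {incr η v}) := by
    ext t
    simp only [Set.mem_ofPred_eq, Set.mem_pi, Finset.mem_coe, Set.mem_singleton_iff]
    constructor
    · intro h v hv
      by_cases hr : v = root
      · subst hr; simpa [incr] using h root hroot
      · have h1 := tau_step t hr
        rw [h v hv, h _ (hpar v hv hr)] at h1
        simp only [incr, hr, if_false]
        rw [h1]
        cases η (parent v) <;> cases t v <;> simp
    · intro h v hv
      obtain ⟨l, hl⟩ := v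
      induction l with
      | nil =>
        show tau t root = η root
        simpa [incr] using h root hroot
      | cons a l ih =>
        have hr : (⟨a :: l, hl⟩ : Word d) ≠ root := by simp [root]
        have hp := hpar _ hv hr
        have h2 := ih hl.tail hp
        have h3 : tau t _ = _ := tau_step t hr
        have h4 := h _ hv
        simp only [incr, hr, if_false] at h4
        rw [h3, h4]
        have h5 : tau t (parent ⟨a :: l, hl⟩) = η (parent ⟨a :: l, hl⟩) := h2
        rw [h5]
        cases η (parent ⟨a :: l, hl⟩) <;> cases η ⟨a :: l, hl⟩ <;> simp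
  rw [hset]
  unfold tLaw
  rw [Measure.infinitePi_pi _ (fun _ _ => measurableSet_singleton _)]
  rw [← Finset.mul_prod_erase D _ hroot]
  have h1 : mrg θ (root : Word d) {incr η root} = ENNReal.ofReal (1 / 2) := by
    simp [mrg, bern_singleton]
  have h2 : ∀ v ∈ D.erase root, mrg θ v {incr η v} = ENNReal.ofReal (wt θ (η v) (η (parent v))) := by
    intro v hv
    have hr : v ≠ root := (Finset.mem_erase.mp hv).1
    simp only [mrg, hr, if_false, incr, bern_singleton, sp_xor, wt]
    congr 2
    have := sp_mul_self (η v)
    ring
  rw [h1, Finset.prod_congr rfl h2, ENNReal.ofReal_mul (by norm_num),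
    ← ENNReal.ofReal_prod_of_nonneg (fun _ _ => wt_nonneg Corr.nonneg Corr.le_one _ _)]
  rfl

lemma isingLaw_cyl_box {D : Finset (Word d)} (hroot : root ∈ D)
    (hpar : ∀ v ∈ D, v ≠ root → parent v ∈ D) (η : Word d → Bool) :
    isingLaw d θ (cyl D η) = ENNReal.ofReal (1 / 2 * wProd θ D root η) := by
  unfold isingLaw
  rw [Measure.map_apply measurable_tau (measurableSet_cyl D η)]
  exact tLaw_box θ hroot hpar η

end Box

/-- A finite set hanging from its top vertex. -/
structure Rooted (D : Finset (Word d)) (top : Word d) : Prop where
  mem : top ∈ D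
  min : ∀ v ∈ D, len top ≤ len v
  closed : ∀ v ∈ D, v ≠ top → parent v ∈ D

section Rooted

variable (θ : ℝ) [Corr θ]

lemma isingLaw_cyl_rooted : ∀ (n : ℕ) {D : Finset (Word d)} {top : Word d}, len top = n →
    Rooted D top → ∀ η : Word d → Bool,
    isingLaw d θ (cyl D η) = ENNReal.ofReal (1 / 2 * wProd θ D top η) := by
  intro n
  induction n with
  | zero =>
    intro D top hn hD η
    have : top = root := len_eq_zero hn
    subst this
    exact isingLaw_cyl_box θ hD.mem hD.closed η
  | succ n ih =>
    intro D top hn hD η
    have hne : top ≠ root := by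
      rintro rfl
      simp at hn
    have hp := len_parent hne
    set p := parent top with hpdef
    have hpD : p ∉ D := fun h => by
      have := hD.min p h
      omega
    have hDp : Rooted (insert p D) p := by
      refine ⟨Finset.mem_insert_self _ _, ?_, ?_⟩
      · intro v hv
        rcases Finset.mem_insert.mp hv with rfl | hv
        · exact le_rfl
        · have := hD.min v hv
          omega
      · intro v hv hvp
        have hv' : v ∈ D := by
          rcases Finset.mem_insert.mp hv with h | h
          · exact absurd h hvp
          · exact h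
        by_cases hvt : v = top
        · subst hvt
          exact Finset.mem_insert_self _ _
        · exact Finset.mem_insert_of_mem (hD.closed v hv' hvt)
    have hunion : cyl D η = cyl (insert p D) (Function.update η p false) ∪
        cyl (insert p D) (Function.update η p true) := by
      ext σ
      simp only [cyl, Set.mem_ofPred_eq, Set.mem_union, Finset.mem_insert, forall_eq_or_imp]
      have hu : ∀ x, (∀ a ∈ D, σ a = Function.update η p x a) ↔ ∀ a ∈ D, σ a = η a := by
        intro x
        refine forall₂_congr fun a ha => ?_
        rw [Function.update_of_ne (fun h => hpD (by rw [← h]; exact ha))]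
      simp only [Function.update_self, hu]
      constructor
      · intro h
        cases hσ : σ p
        · exact Or.inl ⟨rfl, h⟩
        · exact Or.inr ⟨rfl, h⟩
      · rintro (⟨_, h⟩ | ⟨_, h⟩) <;> exact h
    have hdisj : Disjoint (cyl (insert p D) (Function.update η p false))
        (cyl (insert p D) (Function.update η p true)) := by
      rw [Set.disjoint_left]
      intro σ h1 h2
      have h3 := h1 p (Finset.mem_insert_self _ _)
      have h4 := h2 p (Finset.mem_insert_self _ _)
      simp at h3 h4
      rw [h3] at h4
      exact Bool.false_ne_true h4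
    rw [hunion, measure_union hdisj (measurableSet_cyl _ _)]
    have hlenp : len p = n := by omega
    rw [ih hlenp hDp, ih hlenp hDp]
    have hw : ∀ x, wProd θ (insert p D) p (Function.update η p x) =
        wt θ (η top) x * wProd θ D top η := by
      intro x
      unfold wProd
      rw [Finset.erase_insert hpD, ← Finset.mul_prod_erase D _ hD.mem]
      congr 1
      · rw [Function.update_of_ne (fun h => hpD (by rw [← h]; exact hD.mem)), ← hpdef, Function.update_self]
      · refine Finset.prod_congr rfl fun v hv => ?_
        have hv1 := Finset.mem_erase.mp hv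
        have hv2 : parent v ∈ D := hD.closed v hv1.2 hv1.1
        rw [Function.update_of_ne (fun h => hpD (by rw [← h]; exact hv1.2)),
          Function.update_of_ne (fun h => hpD (by rw [← h]; exact hv2))]
    rw [hw, hw, ← ENNReal.ofReal_add]
    · congr 1
      have := wt_add θ (η top)
      calc 1 / 2 * (wt θ (η top) false * wProd θ D top η) +
            1 / 2 * (wt θ (η top) true * wProd θ D top η)
          = 1 / 2 * wProd θ D top η * (wt θ (η top) false + wt θ (η top) true) := by ring
        _ = 1 / 2 * wProd θ D top η := by rw [this, mul_one]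
    · exact mul_nonneg (by norm_num)
        (mul_nonneg (wt_nonneg Corr.nonneg Corr.le_one _ _) (wProd_nonneg θ _ _ _))
    · exact mul_nonneg (by norm_num)
        (mul_nonneg (wt_nonneg Corr.nonneg Corr.le_one _ _) (wProd_nonneg θ _ _ _))

end Rooted

/-- Connectedness of a finite vertex set, in closure form. -/
def ConnClosed (D : Finset (Word d)) : Prop :=
  D.Nonempty ∧ ∀ A ⊆ D, A.Nonempty → (∀ x ∈ A, ∀ y ∈ D, (treeGraph d).Adj x y → y ∈ A) → A = D

lemma connClosed_of_connected {D : Finset (Word d)}
    (h : ((treeGraph d).induce (D : Set (Word d))).Connected) : ConnClosed D := by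
  have hne : D.Nonempty := by
    obtain ⟨⟨v, hv⟩⟩ := h.nonempty
    exact ⟨v, hv⟩
  refine ⟨hne, fun A hAD hA hcl => ?_⟩
  refine Finset.Subset.antisymm hAD fun y hy => ?_
  obtain ⟨a, ha⟩ := hA
  have hr := h.preconnected ⟨a, hAD ha⟩ ⟨y, hy⟩
  obtain ⟨p⟩ := hr
  have key : ∀ {u v : (D : Set (Word d))},
      ((treeGraph d).induce (D : Set (Word d))).Walk u v → u.1 ∈ A → v.1 ∈ A := by
    intro u v q
    induction q with
    | nil => exact id
    | cons hadj _ ih =>
      intro hu
      apply ih
      exact hcl _ hu _ (Subtype.property _) hadj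
  exact key p ha

lemma rooted_of_connClosed {D : Finset (Word d)} (h : ConnClosed D) : ∃ top, Rooted D top := by
  classical
  obtain ⟨top, htop, hmin⟩ := Finset.exists_min_image D len h.1
  refine ⟨top, htop, hmin, fun v hv hvt => ?_⟩
  by_contra hpv
  set A := D.filter (fun x => v.1 <:+ x.1) with hA
  have hvA : v ∈ A := Finset.mem_filter.mpr ⟨hv, List.suffix_refl _⟩
  have hAD : A = D := h.2 A (Finset.filter_subset _ _) ⟨v, hvA⟩ (by
    intro x hx y hy hadj
    have hx2 := (Finset.mem_filter.mp hx).2
    refine Finset.mem_filter.mpr ⟨hy, ?_⟩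
    rcases hadj with ⟨h1, h2⟩ | ⟨h1, h2⟩
    · have hxv : x ≠ v := by
        rintro rfl
        apply hpv
        have : parent x = y := Subtype.ext h2
        rwa [this]
      obtain ⟨a, l, hl⟩ := List.exists_cons_of_ne_nil h1
      rw [hl] at h2 hx2
      have h3 : y.1 = l := by simpa using h2.symm
      rw [h3]
      rcases List.suffix_cons_iff.mp hx2 with h4 | h4
      · exact absurd (Subtype.ext (by rw [hl]; exact h4.symm)) hxv
      · exact h4
    · obtain ⟨a, l, hl⟩ := List.exists_cons_of_ne_nil h1
      rw [hl] at h2 ⊢
      have h3 : l = x.1 := by simpa using h2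
      rw [h3]
      exact hx2.trans (List.suffix_cons a _))
  have htopA : top ∈ A := hAD ▸ htop
  have hsuf := (Finset.mem_filter.mp htopA).2
  have hl1 : len v ≤ len top := hsuf.length_le
  have hl2 := hmin v hv
  exact hvt (Subtype.ext (hsuf.eq_of_length (le_antisymm hl1 hl2)))

lemma prod_edgesIn_rooted (θ : ℝ) {D : Finset (Word d)} {top : Word d} (hD : Rooted D top)
    (η : Word d → Bool) : ∏ e ∈ edgesIn D, eWt θ η e = wProd θ D top η := by
  classical
  symm
  unfold wProd
  refine Finset.prod_bij (fun v _ => s(v, parent v)) ?_ ?_ ?_ ?_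
  · intro v hv
    have hv1 := Finset.mem_erase.mp hv
    have hne : v ≠ root := by
      rintro rfl
      have := hD.min _ hv1.2
      simp only [len_root, Nat.le_zero_eq] at this
      exact hv1.1 (len_eq_zero this).symm
    simp only [edgesIn, Finset.mem_filter, Finset.mk_mem_sym2_iff, mem_edgeSet]
    exact ⟨⟨hv1.2, hD.closed v hv1.2 hv1.1⟩, adj_parent hne⟩
  · intro v hv w hw h
    have hv1 := Finset.mem_erase.mp hv
    have hw1 := Finset.mem_erase.mp hw
    have hne : ∀ {x : Word d}, x ∈ D.erase top → x ≠ root := by
      intro x hx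
      have hx1 := Finset.mem_erase.mp hx
      rintro rfl
      have := hD.min _ hx1.2
      simp only [len_root, Nat.le_zero_eq] at this
      exact hx1.1 (len_eq_zero this).symm
    rcases Sym2.eq_iff.mp h with ⟨h1, _⟩ | ⟨h1, h2⟩
    · exact h1
    · have h3 := len_parent (hne hv)
      have h4 := len_parent (hne hw)
      have h5 : len w + 1 = len v := by rw [← h2]; exact h3
      have h6 : len v + 1 = len w := by rw [h1]; exact h4
      omega
  · intro e he
    simp only [edgesIn, Finset.mem_filter] at he
    obtain ⟨he1, he2⟩ := he
    induction e with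
    | h a b =>
      simp only [Finset.mk_mem_sym2_iff, mem_edgeSet] at he1 he2
      rcases adj_len he2 with ⟨h1, h2⟩ | ⟨h1, h2⟩
      · refine ⟨a, Finset.mem_erase.mpr ⟨?_, he1.1⟩, by rw [← h2]⟩
        rintro rfl
        have := hD.min b he1.2
        omega
      · refine ⟨b, Finset.mem_erase.mpr ⟨?_, he1.2⟩, ?_⟩
        · rintro rfl
          have := hD.min a he1.1
          omega
        · rw [← h2]
          exact Sym2.eq_swap
  · intro v _
    rfl

/-- The marginal formula of the Ising measure on a connected set. -/
theorem isingLaw_cyl (θ : ℝ) [Corr θ] {D : Finset (Word d)} (hD : ConnClosed D)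
    (η : Word d → Bool) :
    isingLaw d θ (cyl D η) = ENNReal.ofReal (1 / 2 * ∏ e ∈ edgesIn D, eWt θ η e) := by
  obtain ⟨top, htop⟩ := rooted_of_connClosed hD
  rw [prod_edgesIn_rooted θ htop, isingLaw_cyl_rooted θ _ rfl htop]

lemma ball_rooted (n : ℕ) : Rooted (ball n : Finset (Word d)) root := by
  refine ⟨by simp, fun v _ => by simp, fun v hv hne => ?_⟩
  have := len_parent hne
  simp only [mem_ball] at hv ⊢
  omega

lemma ball_connClosed (n : ℕ) : ConnClosed (ball n : Finset (Word d)) := by
  classical
  refine ⟨⟨root, by simp⟩, fun A hAD hA hcl => ?_⟩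
  refine Finset.Subset.antisymm hAD ?_
  obtain ⟨a, ha⟩ := hA
  have hup : ∀ (k : ℕ) (v : Word d), len v = k → v ∈ A → root ∈ A := by
    intro k
    induction k with
    | zero =>
      intro v hv hvA
      rwa [← len_eq_zero hv]
    | succ k ih =>
      intro v hv hvA
      have hne : v ≠ root := by
        rintro rfl
        simp at hv
      have hl := len_parent hne
      refine ih (parent v) (by omega) (hcl v hvA _ ?_ (adj_parent hne))
      simp only [mem_ball] at *
      have := hAD hvA
      simp only [mem_ball] at this
      omega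
  have hr := hup _ a rfl ha
  intro y hy
  obtain ⟨l, hl⟩ := y
  induction l with
  | nil => exact hr
  | cons b l ih =>
    have hne : (⟨b :: l, hl⟩ : Word d) ≠ root := by simp [root]
    have hp := len_parent hne
    have hmem : (⟨l, hl.tail⟩ : Word d) ∈ A := by
      apply ih
      simp only [mem_ball, len] at hy ⊢
      simp at hy
      omega
    refine hcl _ hmem _ hy ?_
    right
    exact ⟨by simp, rfl⟩

/-- Two probability measures with the same marginals on balls are equal. -/
lemma ext_of_ball {ν₁ ν₂ : Measure (Word d → Bool)} [IsProbabilityMeasure ν₁]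
    [IsProbabilityMeasure ν₂]
    (h : ∀ (n : ℕ) (η : Word d → Bool), ν₁ (cyl (ball n) η) = ν₂ (cyl (ball n) η)) : ν₁ = ν₂ := by
  classical
  have hball : ∀ n : ℕ, ν₁.map (Finset.restrict (ball n : Finset (Word d))) =
      ν₂.map (Finset.restrict (ball n : Finset (Word d))) := by
    intro n
    apply Measure.ext_of_singleton
    intro x
    rw [Measure.map_apply (Finset.measurable_restrict _) (measurableSet_singleton _),
      Measure.map_apply (Finset.measurable_restrict _) (measurableSet_singleton _)]
    have hx : (Finset.restrict (π := fun _ => Bool) (ball n : Finset (Word d))) ⁻¹' {x} =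
        cyl (ball n) (fun v => if hv : v ∈ ball n then x ⟨v, hv⟩ else false) := by
      ext σ
      simp only [Set.mem_preimage, Set.mem_singleton_iff, cyl, Set.mem_ofPred_eq]
      constructor
      · rintro rfl v hv
        simp [hv]
      · intro hσ
        funext v
        have := hσ v.1 v.2
        simp only [v.2, dif_pos] at this
        simpa using this
    rw [hx]
    exact h n _
  have hall : ∀ I : Finset (Word d), ν₁.map (Finset.restrict I) = ν₂.map (Finset.restrict I) := by
    intro I
    obtain ⟨n, hn⟩ := exists_ball_superset I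
    have h2 : (Finset.restrict I : (Word d → Bool) → _) =
        Finset.restrict₂ hn ∘ Finset.restrict (ball n : Finset (Word d)) := by
      funext σ v
      rfl
    rw [h2, ← Measure.map_map (Finset.measurable_restrict₂ hn) (Finset.measurable_restrict _),
      ← Measure.map_map (Finset.measurable_restrict₂ hn) (Finset.measurable_restrict _), hball n]
  have hl : IsProjectiveLimit ν₁ (fun I : Finset (Word d) => ν₂.map (Finset.restrict I)) :=
    fun I => hall I
  have hl2 : IsProjectiveLimit ν₂ (fun I : Finset (Word d) => ν₂.map (Finset.restrict I)) :=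
    fun I => rfl
  have : ∀ I : Finset (Word d), IsFiniteMeasure (ν₂.map (Finset.restrict I)) := fun I => by
    infer_instance
  exact hl.unique hl2

/-- The action of an automorphism on configurations. -/
def actS {X : Type*} (g : Aut d) (σ : Word d → X) : Word d → X := fun v => σ (g.symm v)

lemma measurable_actS {X : Type*} [MeasurableSpace X] (g : Aut d) :
    Measurable (actS g : (Word d → X) → Word d → X) :=
  measurable_pi_iff.mpr fun _ => measurable_pi_apply _

lemma connClosed_image {D : Finset (Word d)} (hD : ConnClosed D) (g : Aut d) :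
    ConnClosed (D.map g.toEquiv.toEmbedding) := by
  classical
  refine ⟨hD.1.map, fun A hA hne hcl => ?_⟩
  have h1 : A.map g.symm.toEquiv.toEmbedding = D := by
    apply hD.2
    · intro x hx
      obtain ⟨a, ha, rfl⟩ := Finset.mem_map.mp hx
      have := hA ha
      obtain ⟨b, hb, rfl⟩ := Finset.mem_map.mp this
      simpa using hb
    · exact hne.map
    · intro x hx y hy hadj
      obtain ⟨a, ha, rfl⟩ := Finset.mem_map.mp hx
      refine Finset.mem_map.mpr ⟨g y, ?_, by simp⟩
      refine hcl a ha _ (Finset.mem_map.mpr ⟨y, hy, rfl⟩) ?_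
      have h3 := g.map_adj_iff.mpr hadj
      simpa using h3
  rw [← h1]
  ext x
  constructor
  · intro hx
    exact Finset.mem_map.mpr ⟨g.symm x, Finset.mem_map.mpr ⟨x, hx, rfl⟩, by simp⟩
  · intro hx
    obtain ⟨y, hy, rfl⟩ := Finset.mem_map.mp hx
    obtain ⟨z, hz, rfl⟩ := Finset.mem_map.mp hy
    simpa using hz

lemma prod_edgesIn_map (θ : ℝ) (D : Finset (Word d)) (g : Aut d) (η : Word d → Bool) :
    ∏ e ∈ edgesIn (D.map g.toEquiv.toEmbedding), eWt θ (fun v => η (g.symm v)) e =
      ∏ e ∈ edgesIn D, eWt θ η e := by
  classical
  symm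
  refine Finset.prod_bij (fun e _ => Sym2.map g e) ?_ ?_ ?_ ?_
  · intro e he
    simp only [edgesIn, Finset.mem_filter] at he ⊢
    induction e with
    | h a b =>
      simp only [Finset.mk_mem_sym2_iff, mem_edgeSet, Sym2.map_mk] at he ⊢
      refine ⟨⟨?_, ?_⟩, g.map_adj_iff.mpr he.2⟩
      · exact Finset.mem_map.mpr ⟨a, he.1.1, rfl⟩
      · exact Finset.mem_map.mpr ⟨b, he.1.2, rfl⟩
  · intro e _ e' _ h
    exact Sym2.map.injective g.injective h
  · intro e he
    simp only [edgesIn, Finset.mem_filter] at he
    obtain ⟨he1, he2⟩ := he
    induction e with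
    | h a b =>
      simp only [Finset.mk_mem_sym2_iff, mem_edgeSet] at he1 he2
      obtain ⟨a', ha', rfl⟩ := Finset.mem_map.mp he1.1
      obtain ⟨b', hb', rfl⟩ := Finset.mem_map.mp he1.2
      refine ⟨s(a', b'), ?_, rfl⟩
      simp only [edgesIn, Finset.mem_filter, Finset.mk_mem_sym2_iff, mem_edgeSet]
      exact ⟨⟨ha', hb'⟩, g.map_adj_iff.mp he2⟩
  · intro e _
    induction e with
    | h a b => simp [eWt]

/-- The Ising measure is invariant under automorphisms. -/
theorem isingLaw_map_actS (θ : ℝ) [Corr θ] (g : Aut d) :
    (isingLaw d θ).map (actS g) = isingLaw d θ := by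
  have : IsProbabilityMeasure ((isingLaw d θ).map (actS g)) :=
    Measure.isProbabilityMeasure_map (measurable_actS g).aemeasurable
  apply ext_of_ball
  intro n η
  rw [Measure.map_apply (measurable_actS g) (measurableSet_cyl _ _)]
  have hset : actS g ⁻¹' cyl (ball n) η =
      cyl ((ball n : Finset (Word d)).map g.symm.toEquiv.toEmbedding) (fun v => η (g v)) := by
    ext σ
    simp only [cyl, Set.mem_preimage, Set.mem_ofPred_eq, actS, Finset.mem_map]
    constructor
    · rintro h v ⟨a, ha, rfl⟩
      have := h a ha
      simpa using this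
    · intro h v hv
      have := h (g.symm v) ⟨v, hv, rfl⟩
      simpa using this
  rw [hset, isingLaw_cyl θ (connClosed_image (ball_connClosed n) g.symm),
    isingLaw_cyl θ (ball_connClosed n)]
  have := prod_edgesIn_map θ (ball n : Finset (Word d)) g.symm η
  congr 2

/-- The global spin flip. -/
def negS (σ : Word d → Bool) : Word d → Bool := fun v => !σ v

lemma measurable_negS : Measurable (negS : (Word d → Bool) → Word d → Bool) :=
  measurable_pi_iff.mpr fun v =>
    (Measurable.of_discrete (f := not)).comp (measurable_pi_apply v)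

/-- The Ising measure is invariant under the global spin flip. -/
theorem isingLaw_map_negS (θ : ℝ) [Corr θ] : (isingLaw d θ).map negS = isingLaw d θ := by
  have : IsProbabilityMeasure ((isingLaw d θ).map negS) :=
    Measure.isProbabilityMeasure_map measurable_negS.aemeasurable
  apply ext_of_ball
  intro n η
  rw [Measure.map_apply measurable_negS (measurableSet_cyl _ _)]
  have hset : negS ⁻¹' cyl (ball n) η = cyl (ball n) (negS η) := by
    ext σ
    simp only [cyl, Set.mem_preimage, Set.mem_ofPred_eq, negS]
    refine forall₂_congr fun v _ => ?_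
    cases σ v <;> cases η v <;> simp
  rw [hset, isingLaw_cyl θ (ball_connClosed n), isingLaw_cyl θ (ball_connClosed n)]
  congr 2
  refine Finset.prod_congr rfl fun e _ => ?_
  induction e with
  | h a b => simp [eWt, negS, wt_not]

end Vale.Agent.Lib.P161
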